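import Vale.Agent.P275B.Lt
import Vale.Agent.P275BW.Pb

/-!
# P275, Betti side: local semi-invariants on the framed objects
-/

set_option linter.all false

open Set Function Topology Matrix Sum
open Vale.Agent.P275Z Vale.Agent.P275BW Vale.Agent.P275CH Vale.Agent.P275B
open Vale.Agent.P275GC (At)
open Vale.Agent.P275NA (Cy)
open Vale.Agent.P275XB (Ok ix)
open Vale.Agent.P275ST (dimR)
open Vale.Agent.P281Z.Hm (Mx)

noncomputable section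

namespace Vale.Agent.P275LB

variable {n g k : ℕ} {d : ℤ} {J : Type} [Fintype J] {μ : Fin n → ℤ}

/-- **FRM** -/
theorem frm [o : Ok g n d] : FRM g n d := fun k p => by
  obtain ⟨-, σ, h1, -, h2, h3⟩ := adm_bor o.hn
  have F := fdB (g := g) (d := d) (k := k) (J := Empty) (T := univ) (m := Empty.elim) h1 LZ.univ
    (fun p hp => by simpa only [inter_univ] using par_sub _ hp.1) fun _ _ _ _ => trivial
  obtain ⟨χ, c0, c⟩ := F.frm
  obtain ⟨G, b, g0, f, e⟩ := c _ (range_epB.subset ⟨⟨(p, Empty.elim), trivial⟩, rfl⟩)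
  let E : Tup g n → KB n Empty ⊕ P275BC.Ix n g → ℂ := fun ρ => Sum.elim 0 (ix fun s => (ρ s).1)
  have cE : Continuous E := continuous_pi fun i => by
    rcases i with i | i
    exacts [continuous_const, (continuous_subtype_val.comp (continuous_apply _)).matrix_elem _ _]
  refine ⟨{ρ | G (E ρ) ≠ 0}, fun ρ => b (E ρ), isOpen_ne_fun ((continuous_iff_continuousAt.2
    fun x => (pl_an f.pl x).continuousAt).comp cE) continuous_const,
    (e (E p.1.2) (epB (p, Empty.elim)) rfl).1.trans_ne g0, fun ρ hρ => (continuousAt_pi.2 fun a => continuousAt_pi.2 fun a' =>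
      (lc_an (f.lb a a') hρ).continuousAt.comp cE.continuousAt).continuousWithinAt,
    fun ρ hρ => ⟨h2 _ (f.mem _ hρ), (f.mem _ hρ).2⟩, fun ρ hρ h m dt ρ' cj => ?_⟩
  obtain ⟨s, s0, gs⟩ := h3 h m dt
  have gi := F.act.ginv _ gs
  have := e (E ρ') (cA (aB Empty.elim) (s • h)⁻¹ (s • h)⁻¹⁻¹ (E ρ)) (funext fun ⟨a1, a2, a3, a4⟩ => by
    change (ρ' (a1, a2)).1 a3 a4 = ((s • h)⁻¹ * (ρ (a1, a2)).1 * (s • h)⁻¹⁻¹ : Mx (Fin n)) a3 a4
    rw [cj, nonsing_inv_nonsing_inv _ gs.unit, inv_eq_right_inv (A := s • h) (B := s⁻¹ • h⁻¹)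
      (by simp [smul_smul, s0, mul_nonsing_inv _ dt.isUnit])]
    simp [smul_smul, s0])
  refine ⟨this.1.trans_ne ?_, s, s0, this.2.trans ?_⟩
  · rw [f.sem _ gi]
    exact mul_ne_zero (c0 _ gi) hρ
  · rw [f.eqv _ gi _ hρ, nonsing_inv_nonsing_inv _ gs.unit, Matrix.mul_smul]

/-- local semi-invariants for finitely many characters, on one open set -/
theorem ex_sem [Ok g n d] (p : BFr g d (nk n k)) : ∃ O : Set (BFr g d (nk n k)), p ∈ O ∧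
    ∀ μ : Fin n → ℤ, ∑ a, μ a = 0 → ∃ β, Sem (TN μ) O β := by
  obtain ⟨O, b, o, m, c, u, e⟩ := frm k p
  have ct : Continuous fun p : BFr g d (nk n k) => p.1.2 := continuous_subtype_val.snd
  have nz := fun μ ρ hρ => ch_ne μ (mem_bor.1 (u ρ hρ).1) (u ρ hρ).2
  refine ⟨_, m, fun μ hμ => ⟨fun p => (ch μ (b p.1.2))⁻¹, o.preimage ct, ?_,
    fun p hp => inv_ne_zero (nz μ _ hp), ?_⟩⟩
  · refine (ContinuousOn.inv₀ (continuousOn_finset_prod _ fun a _ => ContinuousOn.zpow₀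
      ((continuous_id.matrix_elem a a).comp_continuousOn c) _ fun ρ hρ => Or.inl
        (P275BW.UT.diag_ne (mem_bor.1 (u ρ hρ).1) (u ρ hρ).2 a)) (nz μ)).comp ct.continuousOn
      fun _ a => a
  · rintro p' p _ ⟨h, ⟨a1, a2, -, a4⟩, rfl⟩ hp
    obtain ⟨b1, s, s0, b2⟩ := e _ hp h a1 a2 _ a4
    refine ⟨b1, ?_⟩
    rw [b2, ch_smul hμ s0, ch_mul μ (mem_bor.1 (u _ hp).1) (mem_bor.1 a1), mul_inv,
      inv_mul_cancel_right₀ (ch_ne μ (mem_bor.1 a1) a2)]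

theorem oq_of {E Q ι : Type} [TopologicalSpace E] [TopologicalSpace Q] [Fintype ι] {a D : ℕ}
    {ε : E → ι → ℂ} {π : E → Q} (X : BV a D ε π) : IsOpenQuotientMap π :=
  ⟨X.quo.surjective, X.quo.continuous, X.qv'.isOpenMap⟩

theorem locN [Ok g n d] (hk : k ≤ nr n) (hμ : ∑ a, μ a = 0) :
    Loc (BFr.pt (g := g) (d := d) (tauZ n k)) (TN μ) := by
  refine ⟨oq_of (bZ g d hk (D := 2 * dimR g n + 2 * nr n - k) (by omega)), fun a b e => ?_,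
    fun p => ?_⟩
  · obtain ⟨h, u⟩ := pt_iff.1 e.symm
    exact ⟨_, h, u, rfl⟩
  · obtain ⟨O, m, e⟩ := ex_sem p
    obtain ⟨β, s⟩ := e μ hμ
    exact ⟨O, β, m, s⟩

variable {m : J → Fin n → ℤ} {e : J → ℤ} {S : Set (KB n J → ℂ)} {ε : ℤ}

theorem locB' [Ok g n d] (hm : ∀ j, ∑ a, m j a = 0) (hμ : ∑ a, μ a = 0)
    (h0 : ∀ z : EB g k d S, ε = 0 ∨ ∃ j, e j = 1 ∧ z.1.2 j ≠ 0)
    (oq : IsOpenQuotientMap (ptB (bor n) m e : EB g k d S → _)) :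
    Loc (ptB (bor n) m e : EB g k d S → _) (TB m e μ ε) := by
  refine ⟨oq, fun a b u => ?_, fun z => ?_⟩
  · obtain ⟨h, a1, a2, t, a3, a4, a5, a6⟩ := (ptB_iff le_rfl).1 u.symm
    exact ⟨_, h, t, ⟨a1, a2, a4, a5⟩, a3, a6, rfl⟩
  obtain ⟨O, o, u⟩ := ex_sem z.1.1
  obtain ⟨β, s⟩ := u μ hμ
  have c1 : Continuous fun z : EB g k d S => z.1.1 := continuous_subtype_val.fst
  rcases h0 z with rfl | ⟨j, j1, j2⟩
  · exact ⟨_, _, o, s.comp c1 fun a b c ⟨h, t, a1, _, _, a2⟩ =>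
      ⟨h, a1, by rw [a2, zpow_zero, one_mul]⟩⟩
  obtain ⟨γ, r⟩ := u (m j) (hm j)
  have c2 : Continuous fun z : EB g k d S => z.1.2 j :=
    (continuous_apply j).comp continuous_subtype_val.snd
  have c3 := fun {β T} (s : Sem T O β) => s.ct.comp (s := {z | z.1.1 ∈ O ∧ z.1.2 j ≠ 0})
    c1.continuousOn fun _ a => a.1
  have nz : ∀ z : EB g k d S, z.1.1 ∈ O ∧ z.1.2 j ≠ 0 → z.1.2 j * γ z.1.1 ≠ 0 :=
    fun z a => mul_ne_zero a.2 (r.nz _ a.1)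
  refine ⟨{z | z.1.1 ∈ O ∧ z.1.2 j ≠ 0}, fun z => (z.1.2 j * γ z.1.1) ^ (-ε) * β z.1.1, ⟨o, j2⟩,
    (s.op.preimage c1).inter (isOpen_ne_fun c2 continuous_const),
    ((c2.continuousOn.mul (c3 r)).zpow₀ _ fun z a => Or.inl (nz z a)).mul (c3 s),
    fun z a => mul_ne_zero (zpow_ne_zero _ (nz z a)) (s.nz _ a.1), ?_⟩
  rintro z' z _ ⟨h, t, a1, t0, a2, rfl⟩ hz
  obtain ⟨b1, b2⟩ := s.law _ _ _ ⟨h, a1, rfl⟩ hz.1
  have b3 := (r.law _ _ _ ⟨h, a1, rfl⟩ hz.1).2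
  have b4 := ch_ne (m j) (mem_bor.1 a1.1) a1.2.1
  have b5 := a2 j
  rw [j1, zpow_one] at b5
  refine ⟨⟨b1, b5 ▸ mul_ne_zero t0 (mul_ne_zero b4 hz.2)⟩, ?_⟩
  beta_reduce
  rw [show z'.1.2 j * γ z'.1.1 = t * (z.1.2 j * γ z.1.1) by rw [b5, ← b3]; ring, ← b2,
    mul_zpow t, _root_.zpow_neg t]
  field_simp

theorem locB [Ok g n d] (hm : ∀ j, ∑ a, m j a = 0) (hμ : ∑ a, μ a = 0)
    (h0 : ∀ z : EB g k d S, ∃ j, e j = 1 ∧ z.1.2 j ≠ 0)
    (oq : IsOpenQuotientMap (ptB (bor n) m e : EB g k d S → _)) :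
    Loc (ptB (bor n) m e : EB g k d S → _) (TB m e μ ε) :=
  locB' hm hμ (fun z => Or.inr (h0 z)) oq

/-! ### transitions -/

variable {q : Submodule ℂ (Mx (Fin n))}

theorem cont_bap (t : Aut g n) : Continuous (bap t : BFr g d q → _) :=
  (continuous_subtype_val.fst.prodMk ((cont_ap t).comp continuous_subtype_val.snd)).subtype_mk _

theorem cont_apB (t : Aut g n) : Continuous (apB t : EB g k d S → _) :=
  (((cont_bap t).comp continuous_subtype_val.fst).prodMk continuous_subtype_val.snd).subtype_mk _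

theorem mv_bap (t : Aut g n) {h} {p p' : BFr g d q} (u : Mv h p p') : Mv h (bap t p) (bap t p') :=
  ⟨u.1, u.2.1, u.2.2.1, cj_ap t u.2.1 u.2.2.2⟩

theorem mv_mul {h h'} {p p' p'' : BFr g d q} (u : Mv h p p') (u' : Mv h' p' p'') :
    Mv (h * h') p p'' :=
  ⟨mul_mem u.1 u'.1, by rw [det_mul]; exact mul_ne_zero u.2.1 u'.2.1,
    by rw [u'.2.2.1, u.2.2.1, Matrix.mul_inv_rev]; simp only [Matrix.mul_assoc],
    P275RL.cj_trans u.2.2.2 u'.2.2.2⟩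

theorem mv_eqv {p p' : BFr g d (nk n k)} (a : p'.1.1 = p.1.1) (b : Eqv p.1.1 p.1.2 p'.1.2) :
    ∃ h, Mv h p p' ∧ ∀ μ, ch μ h = 1 := by
  obtain ⟨c, b⟩ := b
  refine ⟨_, ⟨exp_mem ((bor n).smul_mem (nk_bor p.2.1) c), det_exp _, by
    rw [a, Matrix.mul_assoc, ((Commute.refl p.1.1).smul_right c).exp_right.eq,
      P275RL.inv_mul_can (det_exp _)], b⟩, fun μ => Finset.prod_eq_one fun a _ => ?_⟩
  rw [show NormedSpace.exp (c • p.1.1) a a = 1 from ((P275RL.ex_tri (nk_bor p.2.1) c).2 a).trans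
    (by rw [p.2.1.1 a a le_rfl, mul_zero, Complex.exp_zero]), _root_.one_zpow]

variable {C : Type} [TopologicalSpace C] {A : At C} {l : Cy A ℂ} (D : RHD A l g n d)
  {b : ℕ} {B : Mn b} {c : Cv B} (ι : c.ι → Fin D.N)
  (hV : ∀ i j k, (c.V i ∩ c.V j ∩ c.V k).Nonempty →
    (D.V (ι i) ∩ D.V (ι j) ∩ D.V (ι k)).Nonempty)

theorem coc_mv {i j r : Fin D.N} (h : (D.V i ∩ D.V j ∩ D.V r).Nonempty) (p : BFr g d (nk n k)) :
    ∃ h, Mv h (bap (D.t r i) p) (bap (D.t j i) (bap (D.t r j) p)) ∧ ∀ μ, ch μ h = 1 :=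
  let ⟨_, h⟩ := h
  mv_eqv rfl (coc_mul D (τ := tauZ n k) (fun _ => nk_bor) h.2 h.1.2 h.1.1 p).symm

include hV

theorem trN : Tr (c := c) (fun i j => bap (q := nk n k) (d := d) (D.t (ι j) (ι i))) (TN μ) where
  inv _ _ _ _ _ := fun ⟨h, a, b⟩ => ⟨h, mv_bap _ a, b⟩
  mul _ _ _ _ _ := fun ⟨h, a, b⟩ ⟨h', a', b'⟩ => ⟨_, mv_mul a' a, by
    rw [b, b', ch_mul μ (mem_bor.1 a'.1) (mem_bor.1 a.1), mul_comm]⟩
  coc i j r h p := let ⟨u, a, b⟩ := coc_mv D (hV i j r h) p; ⟨u, a, (b μ).symm⟩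

theorem trB :
    Tr (c := c) (fun i j => apB (k := k) (d := d) (S := S) (D.t (ι j) (ι i))) (TB m e μ ε) where
  inv _ _ _ _ _ := fun ⟨h, t, a, b⟩ => ⟨h, t, mv_bap _ a, b⟩
  mul _ _ _ _ _ := fun ⟨h, t, a, t0, u, b⟩ ⟨h', t', a', t0', u', b'⟩ =>
    ⟨_, t * t', mv_mul a' a, mul_ne_zero t0 t0', fun j => by
      rw [u, u', ch_mul _ (mem_bor.1 a'.1) (mem_bor.1 a.1), mul_zpow]; ring, by
      rw [b, b', ch_mul μ (mem_bor.1 a'.1) (mem_bor.1 a.1), mul_zpow]; ring⟩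
  coc i j r h z := let ⟨u, a, b⟩ := coc_mv D (hV i j r h) z.1.1
    ⟨u, 1, a, one_ne_zero, fun j => by rw [b, _root_.one_zpow, one_mul, one_mul]; rfl,
      by rw [b, _root_.one_zpow, one_mul]⟩

end Vale.Agent.P275LB
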