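import Vale.Agent.P275LB.Loc
import Vale.Agent.P275BW.Wk

/-!
# P275, Betti side: semi-invariants, instances
-/

set_option linter.all false

open Set Function Topology Matrix Sum
open Vale.Agent.P275Z Vale.Agent.P275BW Vale.Agent.P275CH Vale.Agent.P275B
open Vale.Agent.P275GC (At)
open Vale.Agent.P275NA (Cy)
open Vale.Agent.P275XB (Ok)

noncomputable section

namespace Vale.Agent.P275LB

variable {n g k a D' b : ℕ} {d ε : ℤ} {J : Type} [Fintype J] {μ : Fin n → ℤ}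
  {m : J → Fin n → ℤ} {e : J → ℤ} {S : Set (KB n J → ℂ)} {B : Mn b} {c : Cv B}
  {t : c.ι → c.ι → Aut g n}

theorem sum_mW (j : Fin (nr n)) (i : JW) : ∑ a, mW j i a = 0 := by
  rcases i with _ | i
  exacts [by simp [mW], sum_mP (sum_rtw j) 0 i]

theorem locP [Ok g n d] (X : BB g k d (bor n) m 1 (T0 n J) a D') (hm : ∀ j, ∑ a, m j a = 0)
    (hμ : ∑ a, μ a = 0) : Loc (ptB (bor n) m 1 : EB g k d (T0 n J) → _) (TB m 1 μ ε) :=
  locB hm hμ (fun z => z.2.imp fun _ l => ⟨rfl, l⟩) (oq_of X)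

theorem locW [Ok g n d] {j : Fin (nr n)} (X : BB g k d (bor n) (mW j) eW (TW j) a D')
    (hμ : ∑ a, μ a = 0) :
    Loc (ptB (bor n) (mW j) eW : EB g k d (TW j) → _) (TB (mW j) eW μ ε) :=
  locB (sum_mW j) hμ (fun z => let ⟨i, l⟩ := z.2.2; ⟨some i, rfl, l⟩) (oq_of X)

variable (d k) in
/-- the transitions form a cocycle up to the one-parameter group of the residue -/
def Coc (t : c.ι → c.ι → Aut g n) : Prop := ∀ i j r, (c.V i ∩ c.V j ∩ c.V r).Nonempty →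
  ∀ p : BFr g d (nk n k), Eqv p.1.1 (ap (t i j) (ap (t j r) p.1.2)) (ap (t i r) p.1.2)

theorem coc_D {C : Type} [TopologicalSpace C] {A : At C} {l : Cy A ℂ} (D : RHD A l g n d)
    (ι : c.ι → Fin D.N) (hV : ∀ i j k, (c.V i ∩ c.V j ∩ c.V k).Nonempty →
      (D.V (ι i) ∩ D.V (ι j) ∩ D.V (ι k)).Nonempty) :
    Coc k d fun i j => D.t (ι j) (ι i) := fun i j r h p =>
  let ⟨_, h⟩ := hV i j r h
  coc_mul D (τ := tauZ n k) (fun _ => nk_bor) h.2 h.1.2 h.1.1 p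

theorem Coc.mv (h : Coc k d t) {i j r : c.ι} (u : (c.V i ∩ c.V j ∩ c.V r).Nonempty)
    (p : BFr g d (nk n k)) :
    ∃ h, Mv h (bap (t i r) p) (bap (t i j) (bap (t j r) p)) ∧ ∀ μ, ch μ h = 1 :=
  mv_eqv rfl (h i j r u p).symm

theorem Coc.anti {k' : ℕ} (h : Coc k d t) (hk : nk n k' ≤ nk n k) : Coc k' d t :=
  fun i j r u p => h i j r u (inF hk p)

theorem trN0 (h : Coc k d t) :
    Tr (c := c) (fun i j => bap (q := nk n k) (d := d) (t i j)) (TN μ) where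
  inv _ _ _ _ _ := fun ⟨h, a, b⟩ => ⟨h, mv_bap _ a, b⟩
  mul _ _ _ _ _ := fun ⟨h, a, b⟩ ⟨h', a', b'⟩ => ⟨_, mv_mul a' a, by
    rw [b, b', ch_mul μ (mem_bor.1 a'.1) (mem_bor.1 a.1), mul_comm]⟩
  coc i j r u p := let ⟨u, a, b⟩ := h.mv u p; ⟨u, a, (b μ).symm⟩

theorem trB0 (h : Coc k d t) :
    Tr (c := c) (fun i j => apB (k := k) (d := d) (S := S) (t i j)) (TB m e μ ε) where
  inv _ _ _ _ _ := fun ⟨h, t, a, b⟩ => ⟨h, t, mv_bap _ a, b⟩
  mul _ _ _ _ _ := fun ⟨h, t, a, t0, u, b⟩ ⟨h', t', a', t0', u', b'⟩ =>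
    ⟨_, t * t', mv_mul a' a, mul_ne_zero t0 t0', fun j => by
      rw [u, u', ch_mul _ (mem_bor.1 a'.1) (mem_bor.1 a.1), mul_zpow]; ring, by
      rw [b, b', ch_mul μ (mem_bor.1 a'.1) (mem_bor.1 a.1), mul_zpow]; ring⟩
  coc i j r u z := let ⟨u, a, b⟩ := h.mv u z.1.1
    ⟨u, 1, a, one_ne_zero, fun j => by rw [b, _root_.one_zpow, one_mul, one_mul]; rfl,
      by rw [b, _root_.one_zpow, one_mul]⟩

end Vale.Agent.P275LB
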