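import Vale.Agent.P275B.Ins
import Vale.Agent.P275OI.Defs

/-!
# P275: the line bundles of the universal flag in the Betti presentation
-/

set_option linter.unusedSectionVars false
set_option backward.isDefEq.respectTransparency false

open Set Function Topology Matrix Filter
open Vale.Agent.P275GC (At)
open Vale.Agent.P275NA (Cy)
open Vale.Agent.P275MO Vale.Agent.P275Z Vale.Agent.P275BW Vale.Agent.P275CH Vale.Agent.P275B
open Vale.Agent.P275RL
open Vale.Agent.P275MM (Sys Chr Hy entB univ univ_f)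
open Vale.Agent.P275OI (th yE Yb)
open Vale.Agent.P281Z.Hm (Mx)
open P275CC (LB Nc Th)

noncomputable section

namespace Vale.Agent.P275LB

/-- local sections of the presentation identify the associated line bundle -/
theorem iso_sec {E Q : Type} [TopologicalSpace E] [TopologicalSpace Q] {π : E → Q}
    {T : E → E → ℂ → Prop} (h : Loc π T) (L : LB Q) (P : L.ι → Q → E → Prop)
    (ex : ∀ x, ∃ (a : L.ι) (O : Set Q) (σ : O → E), IsOpen O ∧ x ∈ O ∧ O ⊆ L.U a ∧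
      Continuous σ ∧ ∀ y, P a y.1 (σ y))
    (pr : ∀ a y z, y ∈ L.U a → P a y z → π z = y)
    (law : ∀ a a' y z z', y ∈ L.U a → y ∈ L.U a' → P a y z → P a' y z' →
      T z' z (L.g a a' y)) : LB.Iso L.dual h.lb := by
  classical
  have key : ∀ x, ∃ (a : L.ι) (p : h.lb.ι) (O : Set Q) (σ : Q → E), IsOpen O ∧ x ∈ O ∧
      O ⊆ L.U a ∧ ContinuousOn σ O ∧ ∀ y ∈ O, P a y (σ y) ∧ σ y ∈ p.1.1 := fun x => by
    obtain ⟨a, O, σ, o, m, s, c, e⟩ := ex x
    obtain ⟨O', β, m', k⟩ := h.ex (σ ⟨x, m⟩)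
    let σ' : Q → E := fun y => if b : y ∈ O then σ ⟨y, b⟩ else σ ⟨x, m⟩
    have e' : ∀ y (b : y ∈ O), σ ⟨y, b⟩ = σ' y := fun y b => by simp only [σ', dif_pos b]
    have c' : ContinuousOn σ' O :=
      continuousOn_iff_continuous_domRestrict.2 (c.congr fun y => e' y.1 y.2)
    exact ⟨a, ⟨(O', β), k⟩, O ∩ σ' ⁻¹' O', σ', c'.isOpen_inter_preimage o k.op,
      ⟨m, show σ' x ∈ O' from e' x m ▸ m'⟩, inter_subset_left.trans s, c'.mono inter_subset_left,
      fun y b => ⟨e' y b.1 ▸ e ⟨y, b.1⟩, b.2⟩⟩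
  choose a p O σ o m s c e using key
  have u : ∀ x, ∀ y ∈ O x, π (σ x y) = y := fun x y b => pr _ _ _ (s x b) (e x y b).1
  have v : ∀ x, O x ⊆ h.lb.U (p x) := fun x y b => u x y b ▸ h.mem_U.2 (e x y b).2
  refine LB.iso_loc _ _ O a p (fun x y => (p x).1.2 (σ x y)) o (fun x => ⟨x, m x⟩) s v
    (fun x => (p x).2.ct.comp (c x) fun y b => (e x y b).2) (fun x x' y b b' => ?_)
    fun x y b => (p x).2.nz _ (e x y b).2
  obtain ⟨k1, k2⟩ := (p x').2.law _ _ _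
    (law _ _ y _ _ (s x' b') (s x b) (e x' y b').1 (e x y b).1) (e x' y b').2
  have k3 := h.lb_g (h.mem_U.2 (e x y b).2) (h.mem_U.2 k1)
  rw [u x y b] at k3
  change _ * L.g (a x') (a x) y = _
  rw [k3, ← k2, ← mul_assoc, div_mul_cancel₀ _ ((p x').2.nz _ k1)]

variable {n g k : ℕ} {d : ℤ} {μ : Fin n → ℤ} {h u R : Mx (Fin n)}

theorem ch_uni (hμ : ∑ a, μ a = 0) (hu : u ∈ uni n) (e : u.det ≠ 0) (m : h ∈ bor n) :
    ch μ (u * h) = ch μ h := by
  rcases n with _ | n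
  · simp [ch]
  · refine (Finset.prod_congr rfl fun a _ => ?_).trans
      (ch_smul hμ (c := u 0 0) (UT.diag_ne (mem_bor.1 hu.1) e 0) h)
    rw [diag_mul hu.1 m, hu.2 a 0]
    rfl

theorem exp_conj (c : ℂ) (R h : Mx (Fin n)) : (NormedSpace.exp (c • R) * h)⁻¹ * R *
    (NormedSpace.exp (c • R) * h) = h⁻¹ * R * h := by
  rw [Matrix.mul_inv_rev, Matrix.mul_assoc, Matrix.mul_assoc, ← Matrix.mul_assoc R,
    ((Commute.refl R).smul_right c).exp_right.eq, Matrix.mul_assoc, inv_mul_can (det_exp _),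
    Matrix.mul_assoc]

/-- the weight of the `a`-th line -/
def muA (a : Fin n) : Fin n → ℤ := fun b => if b = a then n - 1 else -1

theorem sum_muA (a : Fin n) : ∑ b, muA a b = 0 := by
  have : ∀ b, muA a b = (if b = a then (n : ℤ) else 0) - 1 := fun b => by
    unfold muA; split_ifs <;> simp
  simp [this, Finset.sum_sub_distrib]

theorem ch_muA (a : Fin n) (m : h ∈ bor n) (e : h.det ≠ 0) : h a a ^ n / h.det = ch (muA a) h := by
  have : ∀ b, h b b ^ muA a b = (if b = a then h b b ^ n else 1) / h b b := fun b => by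
    unfold muA
    split_ifs
    · rw [zpow_sub₀ (UT.diag_ne (mem_bor.1 m) e b), zpow_natCast, zpow_one]
    · rw [_root_.zpow_neg_one, one_div]
  rw [ch, Finset.prod_congr rfl fun b _ => this b, Finset.prod_div_distrib,
    Finset.prod_ite_eq', if_pos (Finset.mem_univ a), det_of_isUpperTriangular m]

variable {C : Type} [TopologicalSpace C] {A : At C} {l : Cy A ℂ} (D : RHD A l g n d)
  {b e E : ℕ} {B : Mn b} {c : Cv B} {M : Vr e} {F : Fl c M E} {κ : B.X → C} {r : c.ι → Fin D.N}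
  {π : BFr g d (nk n k) → M.X}

/-- `f` identifies the total space with a family of connections -/
structure Sf (κ : B.X → C) (r : c.ι → Fin D.N) (F : Fl c M E) (π : BFr g d (nk n k) → M.X)
    (f : F.T.X → Mod A l (tauZ n k)) : Prop where
  gen : ∀ R ∈ nk n k, Gen d R
  V : ∀ i, ∀ x ∈ c.V i, κ x ∈ D.V (r i)
  lam : ∀ t, (f t).lam = 1
  x : ∀ t, (f t).x = κ (F.q t)
  φ : ∀ i t (z : Ob A l (tauZ n k)) (p : BFr g d (nk n k)), z.pt = f t → F.q t ∈ c.V i →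
    p.1.1 = z.1.R → D.Rel (r i) z.1 p.1.2 → F.φ i t = π p

variable {D} [Hy A l n]

theorem sys_iso (S : Sys A l (tauZ n k) F.T.X) (s : Sf D κ r F π S.f) (hμ : ∑ a, μ a = 0)
    (χ χ' : Chr (bor n)) (he : χ.e = χ'.e)
    (hχ : ∀ h ∈ bor n, h.det ≠ 0 → χ.χ h / χ'.χ h = ch μ h)
    (h : Loc (prT F π) (TT (fun i j => bap (D.t (r j) (r i))) (TN μ))) :
    LB.Iso (S.lb χ χ' he).dual h.lb := by
  have hx : ∀ a t i, t ∈ S.U a → F.q t ∈ c.V i → (S.F a t).x ∈ D.V (r i) := fun a t i m v => by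
    rw [S.x_eq m, s.x]
    exact s.V i _ v
  have hl : ∀ a t, t ∈ S.U a → (S.F a t).lam = 1 := fun a t m => by
    rw [← s.lam t, ← S.pt a t m]
    rfl
  have hq : Continuous F.q := F.hq.continuous
  refine iso_sec h (S.lb χ χ' he) (fun a t w => (w.2.1 : B.X) = F.q t ∧
    w.2.2.1.1 = (S.F a t).R ∧ D.Rel (r w.1) (S.F a t) w.2.2.1.2) (fun t => ?_)
    (fun a t w m v => ?_) fun a a' t w w' m m' v v' => ⟨v'.1.trans v.1.symm, ?_⟩
  · obtain ⟨a, m⟩ := S.cov t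
    obtain ⟨i, v⟩ := c.cov (F.q t)
    have o := (S.op a).inter ((c.opn i).preimage hq)
    obtain ⟨W, hW, ρ, c1, c2⟩ := D.cont (r i) _ (S.F a) t (S.fam a t m)
      (eventually_of_mem (o.mem_nhds ⟨m, v⟩) fun y e =>
        ⟨hl a y e.1, hx a y i e.1 e.2, s.gen _ (S.ob a y e.1).2⟩)
    have k1 : ∀ y ∈ interior W ∩ (S.U a ∩ F.q ⁻¹' c.V i), wv (ρ y) (P275RH.cwd g) =
        mon d (S.F a y).R := fun y e => by
      have z := (S.ob a y e.2.1)
      obtain ⟨p, e1, -⟩ := (D.spec (tauZ n k) (fun _ => nk_bor) (r i) ⟨_, z⟩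
        ⟨hl a y e.2.1, hx a y i e.2.1 e.2.2, s.gen _ (Mod.rep (τ := tauZ n k) _).2.2⟩).2 _
          (c2 y (interior_subset e.1))
      have := p.2.2.2
      rwa [e1] at this
    refine ⟨a, interior W ∩ (S.U a ∩ F.q ⁻¹' c.V i), fun y => ⟨i, ⟨F.q y, y.2.2.2⟩,
      ⟨((S.F a y).R, ρ y), (S.ob a y y.2.2.1).2, s.gen _ (S.ob a y y.2.2.1).2, k1 y y.2⟩⟩,
      isOpen_interior.inter o, ⟨mem_interior_iff_mem_nhds.2 hW, m, v⟩, fun _ e => e.2.1,
      continuous_sigmaMk.comp (((hq.comp continuous_subtype_val).subtype_mk _).prodMk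
        ((Continuous.prodMk ?_ ?_).subtype_mk _)), fun y => ⟨rfl, rfl,
          c2 y (interior_subset y.2.1)⟩⟩
    · exact ((P275MM.ct_R (S.fam a)).mono fun _ e => e.2.1).domRestrict
    · exact (c1.mono fun _ e => interior_subset e.1).domRestrict
  · have v0 : F.q t ∈ c.V w.1 := v.1 ▸ w.2.1.2
    rw [prT, v.1, ← s.φ w.1 t ⟨_, S.ob a t m⟩ w.2.2 (S.pt a t m) v0 v.2.1 v.2.2]
    exact F.ψφ _ _ v0
  · have v0 : F.q t ∈ c.V w'.1 := v'.1 ▸ w'.2.1.2
    obtain ⟨c1, ρ, e1, e2⟩ := D.trn _ (r w'.1) _ _ _ v.2.2 (hx a t _ m v0) (im_ap _ _)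
    obtain ⟨c2, e3⟩ := rel_ib D v'.2.2 e2 (S.ib m m')
    have n1 : ∀ c : ℂ, NormedSpace.exp (c • (S.F a t).R) ∈ uni n := fun c =>
      exp_mem ((uni n).smul_mem (nk_uni (S.ob a t m).2) c)
    have m1 : S.h a a' t ∈ bor n := S.mem m m'
    have d1 := S.det_h m m'
    have m2 := mul_mem (n1 c2).1 m1
    refine ⟨_, ⟨mul_mem (n1 c1).1 m2, ?_, ?_, cj_trans e1 e3⟩, ?_⟩
    · rw [det_mul, det_mul]
      exact mul_ne_zero (det_exp _) (mul_ne_zero (det_exp _) d1)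
    · change w'.2.2.1.1 = _ * w.2.2.1.1 * _
      rw [v.2.1, v'.2.1, exp_conj, exp_conj, (S.ib m m').R (S.gd m') (S.gd m), Matrix.mul_assoc,
        Matrix.mul_assoc, Matrix.nonsing_inv_mul _ d1.isUnit, Matrix.mul_one, inv_mul_can d1]
    · rw [ch_uni hμ (n1 c1) (det_exp _) m2, ch_uni hμ (n1 c2) (det_exp _) m1]
      exact hχ _ m1 d1

theorem lbi_of [Nc F.T.X] (f : C(F.T.X, Mod A l (tauZ n k))) (s : Sf D κ r F π f) (a : Fin n)
    (h : Loc (prT F π) (TT (fun i j => bap (D.t (r j) (r i))) (TN (muA a)))) :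
    th.pe f (yE A l (tauZ n k) le_rfl a) = -th.c h.lb := by
  have := sys_iso ((univ A l (tauZ n k)).pb f) (P275MM.univ_pb_f f ▸ s) (sum_muA a)
    ((entB le_rfl a).pow n) (Chr.det _) (one_mul n) (fun _ => ch_muA a) h
  rw [← Th.c_iso this, Th.c_dual, neg_neg]
  exact (Th.c_pb _ _).symm

theorem nc_mn {D : ℕ} (T : Mn D) : Nc T.X :=
  ⟨T.ch.locallyCompactSpace, inferInstance, inferInstance⟩

variable [T2Space C] [CompactSpace C] [P275XB.Ok g n d] {a' m : ℕ} (D)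
  (Y : BN g k d (le_refl (bor n)) a' m)

omit [Hy A l n] in
theorem sf_FZ : Sf D (B := crv A) (c := cv D) (fun x => x) (fun i => i) (FZ D Y)
    (BFr.pt (tauZ n k)) fun y : Sc A l (tauZ n k) => y.1 := by
  have h : Mo D (BFr.pt (tauZ n k)) (FZ D Y).φ := flS_φ D (τ := tauZ n k) (M := Y.vr)
    (fun _ => nk_bor) (fun _ => gen_nk (g := g)) (.refl _) (alg_map Y)
  refine ⟨fun _ => gen_nk (g := g), fun _ _ h => h, fun t => t.2, fun _ => rfl,
    fun i t z p e v e1 r => ?_⟩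
  obtain ⟨_, a⟩ := t
  subst e
  exact h i z a p v e1 r

/-- **LBI** -/
theorem lbi (a : Fin n) (h : Loc (prT (FZ D Y) (BFr.pt (tauZ n k)))
    (TT (fun i j => bap (D.t j i)) (TN (muA a)))) :
    P275S.pb (P275OI.inc (P275OI.sL A l (tauZ n k) 1)) (yE A l (tauZ n k) le_rfl a).1 =
      (-1 : ℂ) • cq h.lb := by
  have := nc_mn (FZ D Y).T
  have e : pq (X := (FZ D Y).T.X) (P275CC.inc (P275OI.sL A l (tauZ n k) 1))
      (yE A l (tauZ n k) le_rfl a).1 = -cq h.lb := congrArg Subtype.val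
    (lbi_of (F := FZ D Y) (P275CC.inc (P275OI.sL A l (tauZ n k) 1)) (sf_FZ D Y) a h)
  rw [neg_one_smul]
  exact e

theorem lbi' (a : Fin n) (h : Loc (prT (FZ D Y) (BFr.pt (tauZ n k)))
    (TT (fun i j => bap (D.t j i)) (TN (muA a)))) : ∃ s : ℂ,
    P275S.pb (P275OI.inc (P275OI.sL A l (tauZ n k) 1)) (yE A l (tauZ n k) le_rfl a).1 =
      s • (th.c h.lb).1 := ⟨-1, lbi D Y a h⟩

end Vale.Agent.P275LB
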